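import Vale.Agent.P207.N4.H266.SmoothOf

/-!
# P207, line N4: the smooth boundary, for every dimension

`SmB L D`: all transition maps of the charts (also between charts of different leaves) are smooth
and `D` is smooth off the diagonal, with nondegenerate mixed derivative, jointly continuously in the
frames. `smB_of_alt`: the smooth alternative gives the smooth boundary.
-/

open Set Filter Topology Metric
open scoped ContDiff

noncomputable section

namespace Vale.Agent.P207.N4.H391

open Vale.Agent.P207.N3
open Vale.Agent.P207.N4.H722 (GeoIn HessIn)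

variable [Dim]

variable {Γ X B : Type} [Group Γ] [MetricSpace X] [ProperSpace X] [MulAction Γ X]
  [IsIsometricSMul Γ X] [TopologicalSpace B] [CompactSpace B] [T2Space B] [MulAction Γ B]
  [ContinuousConstSMul Γ B]

/-- `D` in two charts -/
def ff (L : Leaf Γ X B) (D : B → B → ℝ) (p : X × X) (z : E2 × E2) : ℝ :=
  D (L.e p.1 z.1) (L.e p.2 z.2)

/-- the pairs of different points in the charts -/
def od (L : Leaf Γ X B) : Set ((X × X) × (E2 × E2)) :=
  {q | q.2.1 ∈ ball (0 : E2) 3 ∧ q.2.2 ∈ ball (0 : E2) 3 ∧
    L.e q.1.1 q.2.1 ≠ L.e q.1.2 q.2.2}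

/-- **the smooth boundary**: the smooth alternative, in terms of the boundary -/
structure SmB (L : Leaf Γ X B) (D : B → B → ℝ) : Prop where
  /-- all transition maps are smooth, with jointly continuous derivatives -/
  tau_jc : JC (fun p : X × X => L.τ p.1 p.2) {q : (X × X) × E2 | q.2 ∈ L.dm q.1.1 q.1.2}
  /-- `D` is smooth off the diagonal, with jointly continuous derivatives -/
  f_jc : JC (ff L D) (od L)
  /-- the mixed derivative is nondegenerate -/
  nd : ∀ x y : X, ∀ a b : E2, ((x, y), (a, b)) ∈ od L → Function.Injective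
    (fderiv ℝ (fun b => fderiv ℝ (fun a => D (L.e x a) (L.e y b)) a) b)

variable {L : Leaf Γ X B} {V : Type} [NormedAddCommGroup V] [NormedSpace ℝ V]
  [FiniteDimensional ℝ V]

/-- **The smooth alternative gives the smooth boundary.** -/
theorem smB_of_alt (I : GeoIn L V) (M : Metr L) (hH : HessIn I M)
    (hS : SmoothAlt (Ten.tens M)) {o : V} (hbo : ∀ ξ, I.b ξ o = 0) (D : B → B → ℝ)
    (hD : ∀ x, D (L.em x) (L.ep x) = L.lv x + L.lp x) : SmB L D := by
  obtain ⟨H, h1, h2, h3⟩ := H266.exists_hess I M hH hS
  have hne : Nonempty B := ⟨L.em (Classical.choice L.nonempty)⟩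
  have hs := H289.smoothHess_of hH H h1 h2 h3
  exact ⟨H289.tau_jc hH hs, H289.D_jc hH hs hbo D hD, fun x y a b hq =>
    H289.nondeg_of hH hs hbo D hD x y (a, b) hq⟩

end Vale.Agent.P207.N4.H391
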