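import Vale.Agent.P207.N4.H391.BtC
import Vale.Agent.P207.H883.St8

/-!
# P207, line N4, step 8: the affine charts with smooth holonomies, from the smooth boundary
-/

open Set Filter Topology Metric
open scoped ContDiff

noncomputable section

namespace Vale.Agent.P207.N4.H391

open Vale.Agent.P207.N3
open Vale.Agent.P207.N4.H883 (AffS)
open Vale.Agent.P207.N4.Ten (ep_cont ball_sub mem_ball0 mem_cball0 tau_eq mem_dm
  tau_mem e_tau tau_symm_mem tau_tau_symm dm_zero_of_ep tau_zero_of_ep isOpen_dm2 isOpen_dm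
  dm_smul fderiv_tau_smul)

variable [Dim]

variable {Γ X B : Type} [Group Γ] [MetricSpace X] [ProperSpace X] [MulAction Γ X]
  [IsIsometricSMul Γ X] [TopologicalSpace B] [CompactSpace B] [T2Space B] [MulAction Γ B]
  [ContinuousConstSMul Γ B] {L : Leaf Γ X B}

variable (F : Aff L) {D : B → B → ℝ}

/-- the transition is smooth at the common end point of two frames -/
theorem tr_smooth_zero (hS : SmB L D) {x y : X} (h : L.ep x = L.ep y) :
    ContDiffAt ℝ ∞ (fun u => F.ch y (F.pt x u)) 0 := by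
  have h0 : (0 : E2) ∈ L.dm x y := dm_zero_of_ep h
  have hτ0 : L.τ x y 0 = 0 := tau_zero_of_ep h
  have hd0 : F.dsc x 0 = 0 := F.dsc_zero x
  have hd : ContDiffAt ℝ ∞ (F.dsc x) 0 := F.dsc_smooth x (F.zero_dT x)
  have hc : ContDiffAt ℝ ∞ (F.cu y) 0 :=
    F.cu_jc.contDiffAt (p := (y, (0 : E2))) ⟨mem_univ _, mem_ball0⟩
  have hτ : ContDiffAt ℝ ∞ (L.τ x y) 0 := hS.tau_jc.contDiffAt (p := ((x, y), (0 : E2))) h0
  have h1 : ContDiffAt ℝ ∞ (fun u => F.cu y (L.τ x y (F.dsc x u))) 0 := by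
    have e1 : ContDiffAt ℝ ∞ (L.τ x y) (F.dsc x 0) := by rw [hd0]; exact hτ
    have e2 := e1.comp (0 : E2) hd
    have e3 : ContDiffAt ℝ ∞ (F.cu y) ((L.τ x y ∘ F.dsc x) 0) := by
      rw [Function.comp_apply, hd0, hτ0]
      exact hc
    exact e3.comp (0 : E2) e2
  refine h1.congr_of_eventuallyEq ?_
  have h3 : ∀ᶠ u in 𝓝 (0 : E2), F.dsc x u ∈ L.dm x y :=
    hd.continuousAt.eventually ((isOpen_dm L x y).mem_nhds (by rwa [hd0]))
  have h4 : ∀ᶠ u in 𝓝 (0 : E2), u ∈ ball (0 : E2) F.rad :=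
    isOpen_ball.mem_nhds (mem_ball_self (by linarith [F.two_lt_rad]))
  filter_upwards [h3, h4] with u hu hu2
  change F.ch y (F.pt x u) = F.ch y (L.e y (L.τ x y (F.dsc x u)))
  rw [e_tau hu, F.e_dsc (F.ball_dT x hu2)]

/-- the change of frame on one leaf -/
theorem ch_leaf {x y : X} (h : L.em x = L.em y) {η : B} (hη : η ≠ L.em x) :
    F.ch y η = F.lin x y (F.ch x η - F.ch x (L.ep y)) := by
  have h1 := F.leaf x y h (F.ch x η)
  rw [F.pt_ch x η hη] at h1
  rw [← h1, F.ch_pt, h1]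

/-- **the transitions are smooth everywhere** -/
theorem tr_smooth (hS : SmB L D) {x y : X} {z : E2} (hz : F.pt x z ≠ L.em y) :
    ContDiffAt ℝ ∞ (fun u => F.ch y (F.pt x u)) z := by
  obtain ⟨w, hw1, hw2, -⟩ := L.exists_frame (L.em x) (F.pt x z) (F.pt_ne x z).symm 0
  obtain ⟨w', hw1', hw2', -⟩ := L.exists_frame (L.em y) (F.pt x z) hz.symm 0
  have h1 := tr_smooth_zero F hS (x := w) (y := w') (hw2.trans hw2'.symm)
  -- `pt x u = pt w (lin x w (u - z))`
  have hz0 : F.ch x (L.ep w) = z := by rw [hw2, F.ch_pt]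
  have h2 : ∀ u, F.pt x u = F.pt w (F.lin x w (u - z)) := by
    intro u
    have := F.leaf x w hw1.symm u
    rw [hz0] at this
    exact this.symm
  -- `ch y η = lin w' y (ch w' η - c)`
  have h3 : ∀ η, η ≠ L.em y → F.ch y η = F.lin w' y (F.ch w' η - F.ch w' (L.ep y)) := by
    intro η hη
    exact ch_leaf F hw1' (by rwa [hw1'])
  have h4 : ContDiffAt ℝ ∞ (fun u => F.ch w' (F.pt w (F.lin x w (u - z)))) z := by
    have e1 : ContDiffAt ℝ ∞ (fun u => F.ch w' (F.pt w u)) (F.lin x w (z - z)) := by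
      rw [sub_self, map_zero]
      exact h1
    exact e1.comp z (f := fun u => F.lin x w (u - z))
      ((F.lin x w).contDiff.comp (contDiff_id.sub contDiff_const)).contDiffAt
  have h5 : ContDiffAt ℝ ∞ (fun u => F.lin w' y (F.ch w' (F.pt w (F.lin x w (u - z)))
      - F.ch w' (L.ep y))) z :=
    (F.lin w' y).contDiff.contDiffAt.comp z (h4.sub contDiffAt_const)
  refine h5.congr_of_eventuallyEq ?_
  have hc : Continuous fun u => F.pt x u := F.pt_cont.comp (continuous_const.prodMk continuous_id)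
  filter_upwards [(isOpen_ne_fun hc continuous_const).mem_nhds hz] with u hu
  rw [h3 _ hu, h2]

/-- **the affine charts with smooth holonomies** -/
def affS (F : Aff L) (hS : SmB L D) : AffS L where
  a := F.ch
  ai := F.pt
  ai_ne := F.pt_ne
  a_ai := F.ch_pt
  ai_a := F.pt_ch
  a_cont := F.ch_cont
  ai_cont := F.pt_cont
  a_ep := ch_ep F
  a_smul := fun g x η h => F.ch_smul g x η h
  a_C1 := fun x u hu => ((F.jc.contDiffAt (p := (x, u)) ⟨mem_univ _, hu⟩).of_le
    (by exact_mod_cast le_top)).contDiffWithinAt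
  c := F.c
  c_pos := F.c_pos
  a_d := F.der_zero
  a_dcont := F.jc.fderiv.continuousOn
  a_aff := fun x y h => ⟨F.lin x y, -F.lin x y (F.ch x (L.ep y)), fun η hη => by
    rw [ch_leaf F h hη, map_sub, sub_eq_add_neg]⟩
  hol_C1 := fun x y h z hz => ((tr_smooth F hS (fun hh => hz (by
    rw [mem_singleton_iff, ← hh, F.ch_pt]))).of_le (by exact_mod_cast le_top)).contDiffWithinAt

theorem kp_eq (hS : SmB L D) {x y : X} (h : L.ep x = L.ep y) :
    (affS F hS).kp x y = fderiv ℝ (L.τ x y) 0 := (tr_hasFDerivAt F hS h).fderiv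

theorem kp_kpe (hS : SmB L D) {x y : X} (h : L.ep x = L.ep y) :
    (affS F hS).kp x y = kpe hS h := kp_eq F hS h

theorem kp_mv (hS : SmB L D) (x : X) (z : E2) :
    (affS F hS).kp x (mv F x z) = kap F hS x z := kp_eq F hS (ep_mv F x z).symm

end Vale.Agent.P207.N4.H391
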