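import Vale.Agent.P207.N4.H391.SmB
import Vale.Agent.P207.N4.H58.Pic

/-!
# P207, line N4, step 8: the four point function in the affine coordinates

`bta F D x (z, u)` is the four point function of `ξ(z) = pt (flip x) z`, `em x`, `η(u) = pt x u`,
`ep x`. It is invariant under the group and the flow, and changes under a change of the base point
`em x` on the stable leaf by a difference.
-/

open Set Filter Topology Metric
open scoped ContDiff

noncomputable section

namespace Vale.Agent.P207.N4.H391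

open Vale.Agent.P207.N3

variable [Dim]

variable {Γ X B : Type} [Group Γ] [MetricSpace X] [ProperSpace X] [MulAction Γ X]
  [IsIsometricSMul Γ X] [TopologicalSpace B] [CompactSpace B] [T2Space B] [MulAction Γ B]
  [ContinuousConstSMul Γ B] {L : Leaf Γ X B}

/-! ### simple facts -/

theorem ep_flip (x : X) : L.ep (L.flip x) = L.em x := by rw [L.ep_flip, L.flip_flip]

theorem em_flip (x : X) : L.em (L.flip x) = L.ep x := (L.ep_flip x).symm

theorem ep_smul (g : Γ) (x : X) : L.ep (g • x) = g • L.ep x := by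
  rw [L.ep_flip, L.ep_flip, L.flip_smul, L.em_smul]

theorem ep_φ (t : ℝ) (x : X) : L.ep (L.φ t x) = L.ep x := by
  rw [L.ep_flip, L.flip_φ, L.em_φ, ← L.ep_flip]

theorem D_smul {D : B → B → ℝ} (hD : ∀ x, D (L.em x) (L.ep x) = L.lv x + L.lp x) (g : Γ) :
    ∃ c : B → ℝ, ∀ ξ η, ξ ≠ η → D (g • ξ) (g • η) = D ξ η + c ξ + c η := by
  classical
  refine ⟨fun ξ => if h : ∃ x, L.em x = ξ then L.lv (g • h.choose) - L.lv h.choose else 0, ?_⟩
  intro ξ η hne
  have hc : ∀ x : X, (if h : ∃ y, L.em y = L.em x then L.lv (g • h.choose) - L.lv h.choose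
      else 0) = L.lv (g • x) - L.lv x := by
    intro x
    have h : ∃ y, L.em y = L.em x := ⟨x, rfl⟩
    rw [dif_pos h]
    have h1 := L.lv_smul g h.choose x h.choose_spec
    linarith
  obtain ⟨x, rfl, rfl, -⟩ := L.exists_frame ξ η hne 0
  have h1 := hD x
  have h2 := hD (g • x)
  rw [L.em_smul, ep_smul] at h2
  have h3 := hc x
  have h4 := hc (L.flip x)
  rw [em_flip] at h4
  simp only [h3, h4, h1, h2, Leaf.lp, L.flip_smul]
  ring

variable (F : Aff L) (D : B → B → ℝ)

/-- the four point function in the affine coordinates -/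
def bta (x : X) (p : E2 × E2) : ℝ :=
  D (F.pt (L.flip x) p.1) (F.pt x p.2) - D (L.em x) (F.pt x p.2)
    - D (F.pt (L.flip x) p.1) (L.ep x) + D (L.em x) (L.ep x)

theorem pt_flip_zero (x : X) : F.pt (L.flip x) 0 = L.em x := by rw [F.pt_zero, ep_flip]

theorem pt_flip_ne (x : X) (z : E2) : F.pt (L.flip x) z ≠ L.ep x := by
  have := F.pt_ne (L.flip x) z
  rwa [em_flip] at this

@[simp] theorem bta_zero_left (x : X) (u : E2) : bta F D x (0, u) = 0 := by
  simp only [bta, pt_flip_zero]
  ring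

@[simp] theorem bta_zero_right (x : X) (z : E2) : bta F D x (z, 0) = 0 := by
  simp only [bta, F.pt_zero]
  ring

theorem bta_smul {D : B → B → ℝ} (hD : ∀ x, D (L.em x) (L.ep x) = L.lv x + L.lp x) (g : Γ)
    (x : X) {p : E2 × E2} (h : F.pt (L.flip x) p.1 ≠ F.pt x p.2) :
    bta F D (g • x) p = bta F D x p := by
  obtain ⟨c, hc⟩ := D_smul hD g
  simp only [bta, L.flip_smul, F.pt_smul, L.em_smul, ep_smul]
  rw [hc _ _ h, hc _ _ (F.pt_ne x p.2).symm, hc _ _ (pt_flip_ne F x p.1), hc _ _ (L.em_ne_ep x)]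
  ring

theorem bta_flow (t : ℝ) (x : X) (z u : E2) :
    bta F D (L.φ t x) (F.P (-t) (L.flip x) z, F.P t x u) = bta F D x (z, u) := by
  simp only [bta, L.flip_φ, F.flow, L.em_φ, ep_φ]

/-! ### change of the base point along the stable leaf -/

/-- the frame over the point `z` of the stable leaf -/
def mv (x : X) (z : E2) : X := L.hol (F.pt (L.flip x) z) x

theorem em_mv (x : X) (z : E2) : L.em (mv F x z) = F.pt (L.flip x) z :=
  L.hol_em _ _ (pt_flip_ne F x z)

theorem ep_mv (x : X) (z : E2) : L.ep (mv F x z) = L.ep x := L.hol_ep _ _ (pt_flip_ne F x z)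

theorem mv_zero (x : X) : mv F x 0 = x := by rw [mv, pt_flip_zero, L.hol_self]

theorem mv_φ (t : ℝ) (x : X) (z : E2) :
    mv F (L.φ t x) (F.P (-t) (L.flip x) z) = L.φ t (mv F x z) := by
  rw [mv, mv, L.flip_φ, F.flow, L.hol_φ _ _ _ (pt_flip_ne F x z)]

theorem mv_smul (g : Γ) (x : X) (z : E2) : mv F (g • x) z = g • mv F x z := by
  rw [mv, mv, L.flip_smul, F.pt_smul, L.hol_smul _ _ _ (pt_flip_ne F x z)]

/-- the linear part of the change of the affine coordinate of the stable leaf -/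
def kap' (x : X) (z : E2) : E2 ≃L[ℝ] E2 := F.lin (L.flip x) (L.flip (mv F x z))

theorem pt_kap' (x : X) (z₁ z : E2) :
    F.pt (L.flip (mv F x z₁)) (kap' F x z₁ (z - z₁)) = F.pt (L.flip x) z := by
  have h1 : L.em (L.flip x) = L.em (L.flip (mv F x z₁)) := by rw [em_flip, em_flip, ep_mv]
  have h2 := F.leaf _ _ h1 z
  rw [ep_flip, em_mv, F.ch_pt] at h2
  exact h2

/-- the holonomy in the affine coordinates -/
def hlo (x : X) (z u : E2) : E2 := F.ch (mv F x z) (F.pt x u)

theorem pt_hlo {x : X} {z u : E2} (h : F.pt (L.flip x) z ≠ F.pt x u) :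
    F.pt (mv F x z) (hlo F x z u) = F.pt x u := by
  rw [hlo, F.pt_ch]
  rw [em_mv]
  exact h.symm

theorem hlo_zero (x : X) (z : E2) : hlo F x z 0 = 0 := by
  have h1 := F.ch_pt (mv F x z) 0
  rw [F.pt_zero, ep_mv] at h1
  rw [hlo, F.pt_zero, h1]

theorem hlo_self (x : X) (u : E2) : hlo F x 0 u = u := by
  rw [hlo, mv_zero, F.ch_pt]

/-- **change of the base point** -/
theorem bta_base {x : X} {z₁ u : E2} (h : F.pt (L.flip x) z₁ ≠ F.pt x u) (z : E2) :
    bta F D (mv F x z₁) (kap' F x z₁ (z - z₁), hlo F x z₁ u) =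
      bta F D x (z, u) - bta F D x (z₁, u) := by
  simp only [bta, pt_kap', pt_hlo F h, em_mv, ep_mv]
  ring

end Vale.Agent.P207.N4.H391
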