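import Vale.Agent.P207.N4.H391.St8P
import Vale.Agent.P207.H883.FlatG

/-!
# P207, line N4, step 8: the smooth alternative gives the flat model
-/

open Set Filter Topology Metric
open scoped ContDiff

noncomputable section

namespace Vale.Agent.P207.N4.H391

open Vale.Agent.P207.N3

variable [Dim]

variable {Γ X B : Type} [Group Γ] [MetricSpace X] [ProperSpace X] [MulAction Γ X]
  [IsIsometricSMul Γ X] [TopologicalSpace B] [CompactSpace B] [T2Space B] [MulAction Γ B]
  [ContinuousConstSMul Γ B] {L : Leaf Γ X B} [MeasurableSpace B] [BorelSpace B] {V : Type}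
  [NormedAddCommGroup V] [NormedSpace ℝ V] [FiniteDimensional ℝ V]

/-- **Step 8**: the smooth alternative gives the flat model. -/
theorem exists_flatM (P : Pic L V) (hR : P.RateP) (hA : SmoothAlt P.S.T) :
    Nonempty (H9.FlatM L P.S.A) := by
  obtain ⟨S, -⟩ := exists_st8_pic P hR hA
  exact ⟨S.flatM P.S.A⟩

end Vale.Agent.P207.N4.H391
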