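import Vale.Agent.P207.N4.H391.BtE
import Vale.Agent.P207.H267.BetaQ

/-!
# P207, line N4, step 8: the tensor is continuous and invariant
-/

open Set Filter Topology Metric
open scoped ContDiff

noncomputable section

namespace Vale.Agent.P207.N4.H391

open Vale.Agent.P207.N3
open Vale.Agent.P207.H267 (BaseD)

variable [Dim]

variable {Γ X B : Type} [Group Γ] [MetricSpace X] [ProperSpace X] [MulAction Γ X]
  [IsIsometricSMul Γ X] [TopologicalSpace B] [CompactSpace B] [T2Space B] [MulAction Γ B]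
  [ContinuousConstSMul Γ B] {L : Leaf Γ X B}

variable (F : Aff L) {D : B → B → ℝ}

/-- the formula of the holonomy -/
theorem hol_formula (hS : SmB L D) (hD : ∀ x, D (L.em x) (L.ep x) = L.lv x + L.lp x) {a b : ℝ}
    (ha : 0 < a) (hab : a ≤ b) (hp : 2 * b < 3 * a) (hR : ∀ t, 0 ≤ t → ∀ x q,
      Real.exp (a * t) * ‖q‖ ≤ ‖F.P t x q‖ ∧ ‖F.P t x q‖ ≤ Real.exp (b * t) * ‖q‖) :
    ∃ ρ, 0 < ρ ∧ ∀ x (z u : E2), ‖z‖ < ρ → ‖u‖ < ρ → (x, (z, u)) ∈ SB F ∧
      mix F D x ((kap F hS x z).symm (hlo F x z u)) =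
        (fderiv ℝ (bta F D x) (z, u)).comp (ContinuousLinearMap.inl ℝ E2 E2) := by
  obtain ⟨r, hr0, hr2, hr⟩ := exists_rad F
  obtain ⟨S, -, -, -, hβ, -, hκ, -, hg⟩ := exists_baseD F hS hD ha hab hp hR
  have hK : ∀ x, (S.K x : E2 →L[ℝ] E2 →L[ℝ] ℝ) = mix F D x := by
    intro x
    rw [← S.K_eq x, hβ]
    rfl
  refine ⟨min S.ρ r, lt_min S.ρ_pos hr0, fun x z u hz hu => ?_⟩
  have hz1 := hz.trans_le (min_le_left _ _)
  have hu1 := hu.trans_le (min_le_left _ _)
  have hz2 := hz.trans_le (min_le_right _ _)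
  have hu2 := hu.trans_le (min_le_right _ _)
  refine ⟨⟨by rw [mem_ball_zero_iff]; linarith, by rw [mem_ball_zero_iff]; linarith,
    hr x z u (by rw [mem_closedBall_zero_iff]; exact hz2.le)
      (by rw [mem_closedBall_zero_iff]; exact hu2.le)⟩, ?_⟩
  have h1 := S.hol_eq (v := x) hz1 hu1
  rw [hκ, hg] at h1
  have h2 : S.Ph x (z, u) = (fderiv ℝ (bta F D x) (z, u)).comp
      (ContinuousLinearMap.inl ℝ E2 E2) := by
    rw [H267.BetaD.Ph, hβ]
    rfl
  rw [← h2, ← h1, ← hK]
  rfl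

theorem P_cont (hS : SmB L D) (hD : ∀ x, D (L.em x) (L.ep x) = L.lv x + L.lp x) {a b : ℝ}
    (ha : 0 < a) (hab : a ≤ b) (hp : 2 * b < 3 * a) (hR : ∀ t, 0 ≤ t → ∀ x q,
      Real.exp (a * t) * ‖q‖ ≤ ‖F.P t x q‖ ∧ ‖F.P t x q‖ ≤ Real.exp (b * t) * ‖q‖)
    {P : X → E2 →L[ℝ] E2 →L[ℝ] E2 →L[ℝ] E2} (hsym : ∀ x u v, P x u v = P x v u)
    (hder : ∀ x u, HasFDerivAt (fun z => (kap F hS x z).symm (hlo F x z u))
      ((1 / 2 : ℝ) • P x u u) 0) (u v α : E2) : Continuous fun x => P x u v α := by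
  obtain ⟨ρ, hρ, hf⟩ := hol_formula F hS hD ha hab hp hR
  -- small `u`
  have h1 : ∀ u : E2, ‖u‖ < ρ → Continuous fun x => P x u u α := by
    intro u hu
    have ho : IsOpen {p : X × E2 | (p.1, (p.2, u)) ∈ SB F} :=
      (isOpen_SB F).preimage (by fun_prop)
    have e1 : JC (fun x (z : E2) => (fderiv ℝ (bta F D x) (z, u)).comp
        (ContinuousLinearMap.inl ℝ E2 E2)) {p : X × E2 | (p.1, (p.2, u)) ∈ SB F} :=
      ((bta_jc' F hS).fderiv.comp' ((JC.id ho).prodMk (JC.const ho u)) fun p hp => hp).clm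
        ((ContinuousLinearMap.compL ℝ E2 (E2 × E2) ℝ).flip (ContinuousLinearMap.inl ℝ E2 E2))
    have hz0 : ‖(0 : E2)‖ < ρ := by rw [norm_zero]; exact hρ
    have e2 : ∀ x, (1 / 2 : ℝ) • P x u u = (mix F D x).inverse ∘L
        fderiv ℝ (fun z : E2 => (fderiv ℝ (bta F D x) (z, u)).comp
          (ContinuousLinearMap.inl ℝ E2 E2)) 0 := by
      intro x
      have f1 := e1.hasFDerivAt (p := (x, (0 : E2))) (hf x 0 u hz0 hu).1
      have f2 := (mix F D x).inverse.hasFDerivAt.comp (0 : E2) f1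
      have f3 : (fun z => (kap F hS x z).symm (hlo F x z u)) =ᶠ[𝓝 0]
          fun z => (mix F D x).inverse ((fderiv ℝ (bta F D x) (z, u)).comp
            (ContinuousLinearMap.inl ℝ E2 E2)) := by
        filter_upwards [isOpen_ball.mem_nhds (mem_ball_self hρ)] with z hz
        rw [mem_ball_zero_iff] at hz
        rw [← (hf x z u hz hu).2, ← mixe_coe F hS x, ContinuousLinearMap.inverse_equiv]
        exact ((mixe F hS x).symm_apply_apply _).symm
      exact (hder x u).unique (f2.congr_of_eventuallyEq f3)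
    have e3 : Continuous fun x => (mix F D x).inverse
        (fderiv ℝ (fun z : E2 => (fderiv ℝ (bta F D x) (z, u)).comp
          (ContinuousLinearMap.inl ℝ E2 E2)) 0 α) := by
      have g1 := e1.fderiv.continuousOn.comp_continuous (f := fun x : X => (x, (0 : E2)))
        (by fun_prop) fun x => (hf x 0 u hz0 hu).1
      exact (mix_inv_cont F hS).clm_apply (g1.clm_apply continuous_const)
    have e4 : (fun x => P x u u α) = fun x => (2 : ℝ) • (mix F D x).inverse
        (fderiv ℝ (fun z : E2 => (fderiv ℝ (bta F D x) (z, u)).comp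
          (ContinuousLinearMap.inl ℝ E2 E2)) 0 α) := by
      funext x
      have g1 := DFunLike.congr_fun (e2 x) α
      change (1 / 2 : ℝ) • P x u u α = (mix F D x).inverse
        (fderiv ℝ (fun z : E2 => (fderiv ℝ (bta F D x) (z, u)).comp
          (ContinuousLinearMap.inl ℝ E2 E2)) 0 α) at g1
      rw [← g1, smul_smul]
      norm_num
    rw [e4]
    exact e3.const_smul (2 : ℝ)
  -- all `u`
  have h2 : ∀ u : E2, Continuous fun x => P x u u α := by
    intro u
    obtain ⟨s, hs, hsu⟩ : ∃ s : ℝ, 0 < s ∧ ‖s • u‖ < ρ := by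
      refine ⟨ρ / (2 * (‖u‖ + 1)), by positivity, ?_⟩
      rw [norm_smul, Real.norm_of_nonneg (by positivity), div_mul_eq_mul_div,
        div_lt_iff₀ (by positivity)]
      nlinarith [norm_nonneg u]
    have e1 : (fun x => P x u u α) = fun x => (s⁻¹ * s⁻¹) • P x (s • u) (s • u) α := by
      funext x
      simp only [map_smul, smul_apply, smul_smul]
      rw [show s⁻¹ * s⁻¹ * (s * s) = 1 by field_simp, one_smul]
    rw [e1]
    exact (h1 _ hsu).const_smul (s⁻¹ * s⁻¹)
  have e1 : (fun x => P x u v α) = fun x => (1 / 2 : ℝ) • (P x (u + v) (u + v) α -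
      P x u u α - P x v v α) := by
    funext x
    have g1 := congrArg (fun T : E2 →L[ℝ] E2 => T α) (hsym x v u)
    simp only [map_add, add_apply, g1]
    module
  rw [e1]
  exact (((h2 (u + v)).sub (h2 u)).sub (h2 v)).const_smul (1 / 2 : ℝ)

theorem hlo_smul (g : Γ) {x : X} {z u : E2} (h : F.pt (L.flip x) z ≠ F.pt x u) :
    hlo F (g • x) z u = hlo F x z u := by
  rw [hlo, hlo, mv_smul, F.pt_smul, F.ch_smul]
  rw [em_mv]
  exact h.symm

theorem P_smul (hS : SmB L D) {P : X → E2 →L[ℝ] E2 →L[ℝ] E2 →L[ℝ] E2}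
    (hsym : ∀ x u v, P x u v = P x v u)
    (hder : ∀ x u, HasFDerivAt (fun z => (kap F hS x z).symm (hlo F x z u))
      ((1 / 2 : ℝ) • P x u u) 0) (g : Γ) (x : X) : P (g • x) = P x := by
  have h1 : ∀ u, P (g • x) u u = P x u u := by
    intro u
    have e1 : (fun z => (kap F hS (g • x) z).symm (hlo F (g • x) z u)) =ᶠ[𝓝 0]
        fun z => (kap F hS x z).symm (hlo F x z u) := by
      have hc : Continuous fun z : E2 => F.pt (L.flip x) z :=
        F.pt_cont.comp (continuous_const.prodMk continuous_id)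
      have e2 : ∀ᶠ z in 𝓝 (0 : E2), F.pt (L.flip x) z ≠ F.pt x u := by
        refine (isOpen_ne_fun hc continuous_const).mem_nhds ?_
        change F.pt (L.flip x) 0 ≠ F.pt x u
        rw [pt_flip_zero]
        exact (F.pt_ne x u).symm
      filter_upwards [e2] with z hz
      rw [hlo_smul F g hz]
      exact DFunLike.congr_fun (kap_symm_smul F hS g x z) _
    have e2 := (hder (g • x) u).unique ((hder x u).congr_of_eventuallyEq e1)
    exact smul_right_injective _ (by norm_num : (1 / 2 : ℝ) ≠ 0) e2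
  ext1 u
  ext1 v
  have h2 := h1 (u + v)
  have h3 := h1 u
  have h4 := h1 v
  have e1 : (2 : ℝ) • P (g • x) u v = (2 : ℝ) • P x u v := by
    have f1 : (2 : ℝ) • P (g • x) u v = P (g • x) (u + v) (u + v) - P (g • x) u u
        - P (g • x) v v := by
      simp only [map_add, add_apply, hsym (g • x) v u]
      module
    have f2 : (2 : ℝ) • P x u v = P x (u + v) (u + v) - P x u u - P x v v := by
      simp only [map_add, add_apply, hsym x v u]
      module
    rw [f1, f2, h2, h3, h4]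
  exact smul_right_injective _ (by norm_num : (2 : ℝ) ≠ 0) e1

end Vale.Agent.P207.N4.H391
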