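import Vale.Agent.P207.N4.H391.St8X

/-!
# P207, line N4, step 8: the input of the assembly, over the picture
-/

open Set Filter Topology Metric
open scoped ContDiff

noncomputable section

namespace Vale.Agent.P207.N4.H391

open Vale.Agent.P207.N3

variable [Dim]

variable {Γ X B : Type} [Group Γ] [MetricSpace X] [ProperSpace X] [MulAction Γ X]
  [IsIsometricSMul Γ X] [TopologicalSpace B] [CompactSpace B] [T2Space B] [MulAction Γ B]
  [ContinuousConstSMul Γ B] {L : Leaf Γ X B} [MeasurableSpace B] [BorelSpace B] {V : Type}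
  [NormedAddCommGroup V] [NormedSpace ℝ V] [FiniteDimensional ℝ V]

/-- the smooth boundary, over the suite -/
theorem smB_of_suite (S : Suite L V) (hA : SmoothAlt S.T) : SmB L S.A.D := by
  obtain ⟨x, hx⟩ := S.X.exists_base
  exact smB_of_alt S.I S.M S.H hA hx S.A.D S.A.D_eq

/-- **The input of step 8, over the picture.** -/
theorem exists_st8_pic (P : Pic L V) (hR : P.RateP) (hA : SmoothAlt P.S.T) :
    ∃ S : H883.St8 L, S.toAffS = affS P.Af (smB_of_suite P.S hA) :=
  exists_st8 P.Af (smB_of_suite P.S hA) P.S.A.D_eq P.Ra.a_pos P.Ra.a_le_b P.Ra.pinch hR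

end Vale.Agent.P207.N4.H391
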